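import Crest.Agent.R165.BC.Main
import Crest.Agent.R165.A.Main
import Crest.Agent.R165.DU.Free

/-! # R165 block DU: Kramers–Wannier duality for solutions and kernels; the free boundary condition without spins

The public statements (`dualF`, `exists_ker_free`, `ker_bound_free`, `ker_free_local`, `mode_bdry_free`, `apriori_free`,
`exists_zeroMode`) are proved in `DU/Dual.lean` and `DU/Free.lean`; the corner calculus is in `DU/Corner.lean` and
`DU/Dual.lean` (namespace `Crest.Agent.R165.DU`). -/
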